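import Mathlib

namespace Vale.Agent.Lib.P036

/-- Three nonnegative reals of sum at most one have product at most `1/27`. -/
theorem prod_le_of_sum_le_one (u v w : ℝ) (hu : 0 ≤ u) (hv : 0 ≤ v) (hw : 0 ≤ w)
    (h : u + v + w ≤ 1) : u * v * w ≤ 1 / 27 := by
  nlinarith [sq_nonneg (u - v), sq_nonneg (v - w), sq_nonneg (u - w), mul_nonneg hu hv,
    mul_nonneg hv hw, mul_nonneg hu hw, mul_nonneg (mul_nonneg hu hv) hw,
    sq_nonneg (u + v + w - 1), mul_nonneg hu (sq_nonneg (v - w)),
    mul_nonneg hv (sq_nonneg (u - w)), mul_nonneg hw (sq_nonneg (u - v))]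

/-- The total variation of a valley-shaped sequence with values in `[0,1]` is at most `2`. -/
theorem tv_bound (k : ℕ) (y : ℕ → ℝ) (hy : ∀ i, i ≤ k → 0 ≤ y i ∧ y i ≤ 1)
    (hprop : ∀ i, i + 2 ≤ k → 0 < y (i + 1) - y i → 0 < y (i + 2) - y (i + 1)) :
    ∑ i ∈ Finset.range k, |y (i + 1) - y i| ≤ 2 := by
  have inv : ∀ j, j ≤ k → ∃ μ : ℝ, 0 ≤ μ ∧
      ∑ i ∈ Finset.range j, |y (i + 1) - y i| ≤ y 0 + y j - 2 * μ ∧
      (μ = y j ∨ ∃ i, i + 1 = j ∧ 0 < y (i + 1) - y i) := by
    intro j
    induction j with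
    | zero =>
      intro _
      exact ⟨y 0, (hy 0 (Nat.zero_le _)).1, by simp; linarith, Or.inl rfl⟩
    | succ j ih =>
      intro hj
      obtain ⟨μ, hμ, hsum, hcase⟩ := ih (by omega)
      rw [Finset.sum_range_succ]
      rcases hcase with hμy | ⟨i, hi, hpos⟩
      · by_cases hb : y (j + 1) - y j ≤ 0
        · refine ⟨y (j + 1), (hy (j + 1) hj).1, ?_, Or.inl rfl⟩
          rw [abs_of_nonpos hb]
          linarith
        · rw [not_le] at hb
          refine ⟨μ, hμ, ?_, Or.inr ⟨j, rfl, hb⟩⟩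
          rw [abs_of_pos hb]
          linarith
      · have hpos' : 0 < y (j + 1) - y j := by
          subst hi
          exact hprop i (by omega) hpos
        refine ⟨μ, hμ, ?_, Or.inr ⟨j, rfl, hpos'⟩⟩
        rw [abs_of_pos hpos']
        linarith
  obtain ⟨μ, hμ, hsum, -⟩ := inv k le_rfl
  have h0 := (hy 0 (Nat.zero_le _)).2
  have hk := (hy k le_rfl).2
  linarith

/-- Core estimate for a convex chain `(x 0, y 0), …, (x (K+1), y (K+1))` in the unit square:
some three consecutive points span a parallelogram of area at most `64 / (3 K^3)`. -/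
theorem chain_core (K : ℕ) (hK : 1 ≤ K) (x y : ℕ → ℝ)
    (hx : ∀ i, i ≤ K → x i < x (i + 1))
    (hx0 : 0 ≤ x 0) (hx1 : x (K + 1) ≤ 1)
    (hy : ∀ i, i ≤ K + 1 → 0 ≤ y i ∧ y i ≤ 1)
    (hconv : ∀ i, i < K →
      (y (i + 1) - y i) * (x (i + 2) - x (i + 1)) ≤ (y (i + 2) - y (i + 1)) * (x (i + 1) - x i)) :
    ∃ i, i < K ∧
      (y (i + 2) - y (i + 1)) * (x (i + 1) - x i) - (y (i + 1) - y i) * (x (i + 2) - x (i + 1))
        ≤ 64 / (3 * (K : ℝ) ^ 3) := by
  have hKpos : (0 : ℝ) < K := by exact_mod_cast hK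
  set a : ℕ → ℝ := fun i => x (i + 1) - x i with ha
  set b : ℕ → ℝ := fun i => y (i + 1) - y i with hb
  set l : ℕ → ℝ := fun i => a i + |b i| with hl
  set ρ : ℕ → ℝ := fun i => b i / l i with hρ
  have hapos : ∀ i, i ≤ K → 0 < a i := fun i hi => sub_pos.mpr (hx i hi)
  have hlpos : ∀ i, i ≤ K → 0 < l i := fun i hi => by
    have h1 := hapos i hi
    have h2 := abs_nonneg (b i)
    show 0 < a i + |b i|
    linarith
  -- the sum of the horizontal steps
  have hsa : ∑ i ∈ Finset.range (K + 1), a i ≤ 1 := by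
    have : ∑ i ∈ Finset.range (K + 1), a i = x (K + 1) - x 0 := Finset.sum_range_sub x (K + 1)
    rw [this]
    linarith
  -- the sum of the vertical steps
  have hsb : ∑ i ∈ Finset.range (K + 1), |b i| ≤ 2 := by
    apply tv_bound (K + 1) y hy
    intro i hi hpos
    have h := hconv i (by omega)
    have h1 := hapos i (by omega)
    have h2 := hapos (i + 1) (by omega)
    by_contra hneg
    rw [not_lt] at hneg
    have e1 : (y (i + 2) - y (i + 1)) * (x (i + 1) - x i) ≤ 0 :=
      mul_nonpos_of_nonpos_of_nonneg hneg h1.le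
    have e2 : 0 < (y (i + 1) - y i) * (x (i + 2) - x (i + 1)) := mul_pos hpos h2
    linarith
  have hsl : ∑ i ∈ Finset.range (K + 1), l i ≤ 3 := by
    have : ∑ i ∈ Finset.range (K + 1), l i
        = ∑ i ∈ Finset.range (K + 1), a i + ∑ i ∈ Finset.range (K + 1), |b i| :=
      Finset.sum_add_distrib
    rw [this]
    linarith
  -- bounds on the normalised slopes
  have hρ1 : ∀ i, i ≤ K → -1 ≤ ρ i ∧ ρ i ≤ 1 := by
    intro i hi
    have h1 := hlpos i hi
    have h2 := hapos i hi
    have h3 := abs_nonneg (b i)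
    have h4 := le_abs_self (b i)
    have h5 := neg_abs_le (b i)
    have hl' : l i = a i + |b i| := rfl
    constructor
    · show -1 ≤ b i / l i
      rw [le_div_iff₀ h1]
      linarith
    · show b i / l i ≤ 1
      rw [div_le_one h1]
      linarith
  -- the cross product is controlled by the slope increment
  have hcross : ∀ i, i < K →
      b (i + 1) * a i - b i * a (i + 1) ≤ l i * l (i + 1) * (ρ (i + 1) - ρ i) ∧
        0 ≤ ρ (i + 1) - ρ i := by
    intro i hi
    have h := hconv i hi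
    have h1 := hapos i (by omega)
    have h2 := hapos (i + 1) (by omega)
    have l1 := hlpos i (by omega)
    have l2 := hlpos (i + 1) (by omega)
    have hc : 0 ≤ b (i + 1) * a i - b i * a (i + 1) := by
      show 0 ≤ (y (i + 1 + 1) - y (i + 1)) * (x (i + 1) - x i)
        - (y (i + 1) - y i) * (x (i + 1 + 1) - x (i + 1))
      linarith
    have key : l i * l (i + 1) * (ρ (i + 1) - ρ i) = b (i + 1) * l i - b i * l (i + 1) := by
      show l i * l (i + 1) * (b (i + 1) / l (i + 1) - b i / l i) = _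
      field_simp
    have hsign : 0 ≤ b (i + 1) * |b i| - b i * |b (i + 1)| := by
      rcases le_total 0 (b i) with hbi | hbi
      · rcases le_total 0 (b (i + 1)) with hbj | hbj
        · rw [abs_of_nonneg hbi, abs_of_nonneg hbj]
          linarith
        · -- b i ≥ 0 ≥ b (i+1): then both vanish in the cross product
          rw [abs_of_nonneg hbi, abs_of_nonpos hbj]
          have e1 : b (i + 1) * a i ≤ 0 := mul_nonpos_of_nonpos_of_nonneg hbj h1.le
          have e2 : 0 ≤ b i * a (i + 1) := mul_nonneg hbi h2.le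
          have e3 : b (i + 1) * a i = 0 := by linarith
          have e4 : b i * a (i + 1) = 0 := by linarith
          have e5 : b (i + 1) = 0 := by
            rcases mul_eq_zero.mp e3 with h0 | h0
            · exact h0
            · exact absurd h0 h1.ne'
          have e6 : b i = 0 := by
            rcases mul_eq_zero.mp e4 with h0 | h0
            · exact h0
            · exact absurd h0 h2.ne'
          rw [e5, e6]
          simp
      · rcases le_total 0 (b (i + 1)) with hbj | hbj
        · rw [abs_of_nonpos hbi, abs_of_nonneg hbj]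
          nlinarith [mul_nonneg hbj (neg_nonneg.mpr hbi)]
        · rw [abs_of_nonpos hbi, abs_of_nonpos hbj]
          linarith
    have hkey2 : b (i + 1) * a i - b i * a (i + 1) ≤ l i * l (i + 1) * (ρ (i + 1) - ρ i) := by
      rw [key]
      show b (i + 1) * a i - b i * a (i + 1)
        ≤ b (i + 1) * (a i + |b i|) - b i * (a (i + 1) + |b (i + 1)|)
      linarith
    refine ⟨hkey2, ?_⟩
    have hpos : 0 < l i * l (i + 1) := mul_pos l1 l2
    by_contra hneg
    rw [not_le] at hneg
    have : l i * l (i + 1) * (ρ (i + 1) - ρ i) < 0 := mul_neg_of_pos_of_neg hpos hneg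
    linarith
  -- the sum of the slope increments
  have hsρ : ∑ i ∈ Finset.range K, (ρ (i + 1) - ρ i) ≤ 2 := by
    rw [Finset.sum_range_sub ρ K]
    have h1 := (hρ1 K le_rfl).2
    have h2 := (hρ1 0 (Nat.zero_le _)).1
    linarith
  -- shifted sums of the lengths
  have hs1 : ∑ i ∈ Finset.range K, l i ≤ 3 := by
    have : ∑ i ∈ Finset.range (K + 1), l i = ∑ i ∈ Finset.range K, l i + l K :=
      Finset.sum_range_succ l K
    have := hlpos K le_rfl
    linarith
  have hs2 : ∑ i ∈ Finset.range K, l (i + 1) ≤ 3 := by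
    have : ∑ i ∈ Finset.range (K + 1), l i = ∑ i ∈ Finset.range K, l (i + 1) + l 0 :=
      Finset.sum_range_succ' l K
    have := hlpos 0 (Nat.zero_le _)
    linarith
  -- pigeonhole
  have hsum : ∑ i ∈ Finset.range K,
      (l i * ((K : ℝ) / 12) + l (i + 1) * ((K : ℝ) / 12) + (ρ (i + 1) - ρ i) * ((K : ℝ) / 4))
        ≤ ∑ _i ∈ Finset.range K, (1 : ℝ) := by
    rw [Finset.sum_add_distrib, Finset.sum_add_distrib, ← Finset.sum_mul, ← Finset.sum_mul,
      ← Finset.sum_mul]
    simp only [Finset.sum_const, Finset.card_range, nsmul_eq_mul, mul_one]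
    nlinarith
  have hne : (Finset.range K).Nonempty := Finset.nonempty_range_iff.mpr (by omega)
  obtain ⟨i, hi, hui⟩ := Finset.exists_le_of_sum_le hne hsum
  rw [Finset.mem_range] at hi
  refine ⟨i, hi, ?_⟩
  obtain ⟨hc1, hc2⟩ := hcross i hi
  have l1 := hlpos i (by omega)
  have l2 := hlpos (i + 1) (by omega)
  have hprod := prod_le_of_sum_le_one (l i * ((K : ℝ) / 12)) (l (i + 1) * ((K : ℝ) / 12))
    ((ρ (i + 1) - ρ i) * ((K : ℝ) / 4)) (by positivity) (by positivity)
    (mul_nonneg hc2 (by positivity)) hui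
  have hfinal : l i * l (i + 1) * (ρ (i + 1) - ρ i) ≤ 64 / (3 * (K : ℝ) ^ 3) := by
    have e : l i * ((K : ℝ) / 12) * (l (i + 1) * ((K : ℝ) / 12)) * ((ρ (i + 1) - ρ i) * ((K : ℝ) / 4))
        = l i * l (i + 1) * (ρ (i + 1) - ρ i) * ((K : ℝ) ^ 3 / 576) := by ring
    rw [e] at hprod
    have hK3 : (0 : ℝ) < (K : ℝ) ^ 3 := by positivity
    rw [le_div_iff₀ (by positivity)]
    nlinarith
  show b (i + 1) * a i - b i * a (i + 1) ≤ 64 / (3 * (K : ℝ) ^ 3)
  linarith

end Vale.Agent.Lib.P036
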