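import Mathlib
import Vale.Agent.Lib.P036.Chain

namespace Vale.Agent.Lib.P036

/-- Points of the unit square on the graph of a convex function: some three of them span a
triangle of area at most `32 / (3 (n-2)^3)`. -/
theorem convex_curve (P : Finset (ℝ × ℝ)) (φ : ℝ → ℝ) (hφ : ConvexOn ℝ (Set.Icc 0 1) φ)
    (hP : ∀ p ∈ P, p.1 ∈ Set.Icc (0 : ℝ) 1 ∧ p.2 ∈ Set.Icc (0 : ℝ) 1 ∧ p.2 = φ p.1)
    (hn : 3 ≤ P.card) :
    ∃ p ∈ P, ∃ q ∈ P, ∃ r ∈ P, p ≠ q ∧ q ≠ r ∧ p ≠ r ∧
      |(q.1 - p.1) * (r.2 - p.2) - (q.2 - p.2) * (r.1 - p.1)| / 2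
        ≤ 32 / (3 * ((P.card : ℝ) - 2) ^ 3) := by
  classical
  set n := P.card with hn'
  set S : Finset ℝ := P.image Prod.fst with hS
  have hinj : Set.InjOn Prod.fst (P : Set (ℝ × ℝ)) := by
    intro p hp q hq hpq
    have h1 := (hP p hp).2.2
    have h2 := (hP q hq).2.2
    ext
    · exact hpq
    · rw [h1, h2, hpq]
  have hcard : S.card = n := Finset.card_image_of_injOn hinj
  set e := S.orderEmbOfFin hcard with he
  set x : ℕ → ℝ := fun i => if h : i < n then e ⟨i, h⟩ else 0 with hx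
  have hxe : ∀ i (h : i < n), x i = e ⟨i, h⟩ := fun i h => by
    show (if h : i < n then e ⟨i, h⟩ else 0) = _
    rw [dif_pos h]
  have hxS : ∀ i, i < n → x i ∈ S := fun i h => by
    rw [hxe i h]
    exact Finset.orderEmbOfFin_mem S hcard _
  have hxP : ∀ i, i < n → (x i, φ (x i)) ∈ P := by
    intro i h
    obtain ⟨p, hp, hpx⟩ := Finset.mem_image.mp (hxS i h)
    have h2 := (hP p hp).2.2
    have hpe : p = (x i, φ (x i)) := by
      ext
      · exact hpx
      · show p.2 = φ (x i)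
        rw [h2, hpx]
    rw [← hpe]
    exact hp
  have hmono : ∀ i j, i < j → j < n → x i < x j := by
    intro i j hij hj
    rw [hxe i (by omega), hxe j hj]
    exact e.strictMono (Fin.mk_lt_mk.mpr hij)
  have hxI : ∀ i, i < n → x i ∈ Set.Icc (0 : ℝ) 1 := fun i h => (hP _ (hxP i h)).1
  have hyI : ∀ i, i < n → φ (x i) ∈ Set.Icc (0 : ℝ) 1 := fun i h => (hP _ (hxP i h)).2.1
  have hK : 1 ≤ n - 2 := by omega
  obtain ⟨i, hi, hbound⟩ := chain_core (n - 2) hK x (fun i => φ (x i))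
    (fun i hi => hmono i (i + 1) (by omega) (by omega))
    (hxI 0 (by omega)).1
    (hxI (n - 2 + 1) (by omega)).2
    (fun i hi => hyI i (by omega))
    (by
      intro i hi
      have h1 := hmono i (i + 1) (by omega) (by omega)
      have h2 := hmono (i + 1) (i + 2) (by omega) (by omega)
      have h := hφ.slope_mono_adjacent (hxI i (by omega)) (hxI (i + 2) (by omega)) h1 h2
      rw [div_le_div_iff₀ (sub_pos.mpr h1) (sub_pos.mpr h2)] at h
      exact h)
  have h1 := hmono i (i + 1) (by omega) (by omega)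
  have h2 := hmono (i + 1) (i + 2) (by omega) (by omega)
  have h3 := hmono i (i + 2) (by omega) (by omega)
  have hc : (φ (x (i + 1)) - φ (x i)) * (x (i + 2) - x (i + 1))
      ≤ (φ (x (i + 2)) - φ (x (i + 1))) * (x (i + 1) - x i) := by
    have h := hφ.slope_mono_adjacent (hxI i (by omega)) (hxI (i + 2) (by omega)) h1 h2
    rw [div_le_div_iff₀ (sub_pos.mpr h1) (sub_pos.mpr h2)] at h
    exact h
  refine ⟨(x i, φ (x i)), hxP i (by omega), (x (i + 1), φ (x (i + 1))), hxP (i + 1) (by omega),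
    (x (i + 2), φ (x (i + 2))), hxP (i + 2) (by omega), ?_, ?_, ?_, ?_⟩
  · intro h
    have := congrArg Prod.fst h
    simp only at this
    linarith
  · intro h
    have := congrArg Prod.fst h
    simp only at this
    linarith
  · intro h
    have := congrArg Prod.fst h
    simp only at this
    linarith
  · show |(x (i + 1) - x i) * (φ (x (i + 2)) - φ (x i))
        - (φ (x (i + 1)) - φ (x i)) * (x (i + 2) - x i)| / 2 ≤ _
    have hnK : ((n : ℝ) - 2) = ((n - 2 : ℕ) : ℝ) := by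
      rw [Nat.cast_sub (by omega)]
      norm_num
    rw [hnK]
    have heq : (x (i + 1) - x i) * (φ (x (i + 2)) - φ (x i))
        - (φ (x (i + 1)) - φ (x i)) * (x (i + 2) - x i)
        = (φ (x (i + 2)) - φ (x (i + 1))) * (x (i + 1) - x i)
          - (φ (x (i + 1)) - φ (x i)) * (x (i + 2) - x (i + 1)) := by ring
    rw [heq, abs_of_nonneg (by linarith)]
    have e64 : (32 : ℝ) / (3 * ((n - 2 : ℕ) : ℝ) ^ 3) = 64 / (3 * ((n - 2 : ℕ) : ℝ) ^ 3) / 2 := by
      ring
    rw [e64]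
    have hb : (φ (x (i + 2)) - φ (x (i + 1))) * (x (i + 1) - x i)
        - (φ (x (i + 1)) - φ (x i)) * (x (i + 2) - x (i + 1))
        ≤ 64 / (3 * ((n - 2 : ℕ) : ℝ) ^ 3) := hbound
    linarith

end Vale.Agent.Lib.P036
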